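import Vale.Agent.P014T.Iv.Lg
import Vale.Agent.P004F.Rec.All
import Vale.Agent.P004F.Pr.Loc

/-!
# P014T, block INV: the local invariants and the reciprocity law (helper93)
-/

set_option linter.all false

noncomputable section

namespace Vale.Agent.P014T.Iv

open NumberField Topology Filter
open Vale.Agent.P022 Vale.Agent.P022K
open Vale.Agent.P022D.W (dec inP_le_dec phi_mem conj_inP exists_phi)
open Vale.Agent.P022.H443 (inP)
open Vale.Agent.P022E.GW (Ov Fb)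
open Vale.Agent.P004S.Ga (K O mem_O d2 d3 Z2 B2)
open Vale.Agent.P004S.Aq Vale.Agent.P004F.Rc Vale.Agent.P014T.Sy
open scoped Pointwise

/-- the group of cocycles -/
def ZZ (D : Subgroup GQ) : AddSubgroup (GQ → GQ → K) where
  carrier := {z | Z2 cy D z}
  zero_mem' := ⟨continuousOn_const, fun _ _ _ _ _ _ => by simp [d3]⟩
  add_mem' ha hb := ⟨ha.cont.add hb.cont, fun g hg j hj k hk => O_of (add_mem (ha.coc g hg j hj k hk)
    (hb.coc g hg j hj k hk)) (by simp only [d3, Pi.add_apply]; ring)⟩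
  neg_mem' ha := ⟨ha.cont.neg, fun g hg j hj k hk => O_of (neg_mem (ha.coc g hg j hj k hk))
    (by simp only [d3, Pi.neg_apply]; ring)⟩

/-- the group of coboundaries -/
def BB (D : Subgroup GQ) : AddSubgroup (GQ → GQ → K) where
  carrier := {z | B2 cy D z}
  zero_mem' := b2_zero fun _ _ _ _ => zero_mem _
  add_mem' := b2_add
  neg_mem' := b2_neg

variable {l n : ℕ} {P : Ideal (𝓞 Qb)} {D : Subgroup GQ} {z w : GQ → GQ → K} {θ : GQ → K} {β : Qb}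
  {t : K} {φ : GQ}

theorem nsm (m : ℕ) (z : GQ → GQ → K) (g j : GQ) : (m • z) g j = m * z g j := nsmul_eq_mul _ _

theorem z2_lev (hD : IsClosed (D : Set GQ)) (hz : Z2 cy D z) :
    ∃ k : ℕ, ∀ g ∈ D, ∀ j ∈ D, 2 ^ k * z g j ∈ O :=
  have := G2.cpt
  (bdd (hD.isCompact.prod hD.isCompact) hz.cont).imp fun _ h g hg j hj => h (g, j) ⟨hg, hj⟩

theorem h2_two {Γ : Subgroup GQ} (hΓ : IsOpen (Γ : Set GQ)) (o : Ov l P) (e : D = Γ ⊓ dec P) :
    ∀ z ∈ ZZ D, ∀ w ∈ ZZ D, 2 • z ∈ BB D → 2 • w ∈ BB D → z ∉ BB D → w ∉ BB D → z - w ∈ BB D := by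
  have cl : IsClosed (D : Set GQ) := e ▸ G2.inf_dec_closed hΓ P
  have d := (G2.dimt2 (ZMod 2) Γ l P _ hΓ o (G2.rp_om (p := 2) _ Γ)).1
  rw [G2.ch_om_two, ← e] at d
  obtain ⟨f, -, f2⟩ := P004F.Pr.ex_fun d
  have k : ∀ y : GQ → GQ → K, (∀ g ∈ D, ∀ j ∈ D, 2 * y g j ∈ O) →
      ∀ v ∈ G2.Z2 ∅ D (G2.tr GQ (ZMod 2)), (∀ g ∈ D, ∀ j ∈ D, rz (y g j) = v g j) → f v = 0 →
      y ∈ BB D := fun y hf v hv e h => by
    obtain ⟨a, ha, e'⟩ := f2 _ hv h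
    exact ⟨_, ofB hf ha fun g hg j hj => (e g hg j hj).trans (e' g hg j hj)⟩
  have r : ∀ z ∈ ZZ D, 2 • z ∈ BB D → z ∉ BB D → ∃ y ∈ ZZ D, (∀ g ∈ D, ∀ j ∈ D, 2 * y g j ∈ O) ∧
      z - y ∈ BB D ∧ f (fun g j => rz (y g j)) = 1 := fun z hz ⟨η, h1, h2⟩ nz => by
    have c : ContinuousOn (fun g => 2⁻¹ * η g) D := continuousOn_const.mul h1
    have hf : ∀ g ∈ D, ∀ j ∈ D, 2 * (z g j - d2 cy (fun g => 2⁻¹ * η g) g j) ∈ O :=
      fun g hg j hj => O_of (h2 g hg j hj) (by simp only [d2, nsm]; ring)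
    have b : z - (fun g j => z g j - d2 cy (fun g => 2⁻¹ * η g) g j) ∈ BB D :=
      ⟨_, c, fun g _ j _ => O_of (zero_mem _) (by simp)⟩
    exact ⟨_, z2_sub hz c, hf, b, P004F.Pr.z01 _ fun e => nz (by
      simpa using add_mem b (k _ hf _ (toZ cl (z2_sub hz c) hf) (fun _ _ _ _ => rfl) e))⟩
  intro z hz w hw a b c d
  obtain ⟨x, x1, x2, x3, x4⟩ := r z hz a c
  obtain ⟨y, y1, y2, y3, y4⟩ := r w hw b d
  have := k (x - y) (fun g hg j hj => hf_sub (x2 g hg j hj) (y2 g hg j hj)) _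
    (sub_mem (toZ cl x1 x2) (toZ cl y1 y2)) (fun g hg j hj => rz_sub (x2 g hg j hj) (y2 g hg j hj))
    (by rw [map_sub, x4, y4, sub_self])
  have e := add_mem (sub_mem x3 y3) this
  rwa [show z - x - (w - y) + (x - y) = z - w by abel] at e

/-- unramified characters of level `n` -/
structure Ur (P : Ideal (𝓞 Qb)) (n : ℕ) (θ : GQ → K) : Prop where
  ad : Ad (dec P) θ
  lv : Lv (dec P) n θ
  ur : ∀ i ∈ inP P, θ i ∈ O

/-- tame reciprocity -/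
theorem rq (hz : Z2 cy ⊤ z) (L : Finset ℕ) (P : ℕ → Ideal (𝓞 Qb)) (φ : ℕ → GQ) (β : ℕ → Qb)
    (u : ℕ → GQ → K) (hL : ∀ l ∈ L, Ov l (P l) ∧ l ≠ 2 ∧ Fb l (P l) (φ l) ∧ β l ^ 2 ^ n = l ∧
      Ur (P l) n (u l) ∧ B2 cy (dec (P l)) (z - cp n (u l) (β l)))
    (h1 : ∀ p : ℕ, p.Prime → p ∉ L → ∃ Q, Ov p Q ∧ B2 cy (dec Q) z)
    (h0 : ∃ w, B2 cy (G2.St (G2.ip w)) z) : ∑ l ∈ L, u l (φ l) ∈ O := by
  have key := recq n (ex_prim' n) hz L P φ (fun l g => tz n (2 ^ n * ku (β l) g))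
    (fun l g => tz n (2 ^ n * u l g)) (fun l m => ?_) h1 h0
  · have e : ∀ l ∈ L, 2 ^ n * u l (φ l) ∈ O := fun l m =>
      (hL l m).2.2.2.2.1.lv _ (phi_mem (hL l m).1.1 (hL l m).1.2.1 (hL l m).2.2.1)
    refine O_of (add_mem (sum_mem fun l m => tz_lev (e l m)) ((nat_iff n
      (∑ l ∈ L, (tz n (2 ^ n * u l (φ l))).val)).2 ((ZMod.natCast_eq_zero_iff _ _).1 ?_))) ?_
    · simpa using key
    · rw [Finset.sum_sub_distrib, Nat.cast_sum, Finset.mul_sum, sub_add_cancel]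
  · obtain ⟨a1, a2, a3, a4, ⟨v1, v2, v3⟩, v5⟩ := hL l m
    have k : Rt ⊤ n (β l) := rt_nat a4 a1.1.ne_zero
    obtain ⟨W, hW, e⟩ := v1.lv
    refine ⟨a1, a2, a3, ⟨β l, a4, fun g => ?_⟩, fun g hg j hj => ?_, ⟨W, hW.opn, fun w a d =>
      (tz_lev0 (v2 w d)).2 (e w d a)⟩, fun s hs => (tz_lev0 (v2 s (inP_le_dec hs))).2 (v3 s hs),
      b2_congr v5 fun g hg j _ => ?_⟩
    · rw [k.act trivial, ← ex_nat, mul_comm _ (hn n), ex_eq.2 (tz_lev (k.int trivial))]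
    · have := v1.add g hg j hj
      rw [← tz_add (v2 g hg) (v2 j hj), show 2 ^ n * u l (g * j) = 2 ^ n * u l g + 2 ^ n * u l j +
        2 ^ n * (u l (g * j) - u l g - u l j) by ring,
        tz_add (add_mem (v2 g hg) (v2 j hj)) (O_mul (O_pow n) this),
        (tz_lev0 (O_mul (O_pow n) this)).2 this, add_zero]
    · exact O_of (add_mem (O_cp (v2 g hg) g (tz_lev (k.int (g := j) trivial)))
        (O_mul (tz_lev (v2 g hg)) (O_mul (O_cy g) (O_nat (tz n (2 ^ n * ku (β l) j)).val)))) (by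
          simp only [cp, Pi.sub_apply, hn]; field_simp; ring)

theorem ex_f (o : Ov l P) {ψ : GQ → K} (ad : ∀ t, Ad (dec P) fun g => t * ψ g)
    (int : ∀ g ∈ dec P, ψ g ∈ O) {a : ℕ} (a0 : a ≠ 0)
    (nz : ∀ β : Qb, β ^ 2 ^ 1 = a → ¬ B2 cy (dec P) (cp 1 (fun g => hn 1 * ψ g) β)) :
    ∃ f : (GQ → GQ → K) →+ K ⧸ O, (∀ z, B2 cy (dec P) z → f z = 0) ∧
      (∀ z, Z2 cy (dec P) z → f z = 0 → B2 cy (dec P) z) ∧ ∀ n (β : Qb) t, β ^ 2 ^ n = a →
        2 ^ n * t ∈ O →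
        f (cp n (fun g => t * ψ g) β) = mq t := by
  choose β hβ using fun n => ex_rt n (a : Qb)
  have k : ∀ n, Rt (dec P) n (β n) := fun n => rt_nat (hβ n) a0
  have lv : ∀ n, Lv (dec P) n fun g => hn n * ψ g := fun n g m => lev (int g m)
  have cm : ∀ {n} {γ : Qb}, γ ^ 2 ^ n = a → cp n (fun g => hn n * ψ g) γ -
      cp n (fun g => hn n * ψ g) (β n) ∈ BB (dec P) := fun {n γ} e =>
    cp_cmp (k n) (ad _) (lv n) one_ne_zero (fun g _ => map_one g) (by rw [e, hβ, one_pow, mul_one])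
  obtain ⟨f, f1, f2, f3⟩ := ex_inv (ZZ (dec P)) (BB (dec P))
    (fun z hz => (z2_lev (G2.dec_closed P) hz).imp fun k h => b2_zero fun g hg j hj => by
      simpa using h g hg j hj) (h2_two isOpen_univ o (top_inf_eq _).symm)
    (fun n => cp n (fun g => hn n * ψ g) (β n)) (fun n => cp_z2 (k n) (ad _) (lv n))
    (b2_zero fun g hg j hj => O_mul (by simpa using lv 0 g hg) (O_mul (O_cy g) ((k 0).int hj)))
    (nz _ (hβ 1)) fun n => b2_congr (cm (γ := β (n + 1) ^ 2 ^ 1) (by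
      rw [← pow_mul, ← pow_add, add_comm, hβ])) fun g hg j hj =>
        O_of (neg_mem (cp_lev (k (n + 1)) (lv n) hg hj)) (by
          simp only [cp, Pi.sub_apply, nsm, ← hn_add n 1]; push_cast; ring)
  refine ⟨f, f1, f2, fun n γ t e ht => ?_⟩
  obtain ⟨m, hm⟩ := lev_apx ht
  rw [mq_eq.2 hm, mul_comm (hn n), mq_nat, ← f3, ← map_nsmul, ← sub_eq_zero, ← map_sub]
  refine f1 _ (b2_congr (nsmul_mem (cm e) m) fun g hg j hj => O_of (O_mul (O_mul hm (int g hg))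
    (O_mul (O_cy g) ((rt_nat e a0).int hj))) ?_)
  simp only [cp, Pi.sub_apply, nsm]
  ring

/-- the base of the normalisation -/
def bs (l : ℕ) : ℕ := if l = 2 then 5 else l

/-- the character of the normalisation -/
def ps (l : ℕ) (g : GQ) : K := (if l = 2 then -1 else 1) * (Lg (bs l))⁻¹ * lam g

theorem ps_ad (D : Subgroup GQ) (l : ℕ) (t : K) : Ad D fun g => t * ps l g := by
  simpa only [ps, ← mul_assoc] using lam_ad D _

theorem un_nat {a : ℕ} (h : Odd a) : Un a := by simpa using un_int h.natCast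

theorem Lg_ne (hl : l.Prime) (h2 : l ≠ 2) : Lg l ≠ 0 := fun e => by
  have := (Lg_zero (un_nat (hl.odd_of_ne_two h2))).1 e
  exact hl.ne_one (by exact_mod_cast (pow_eq_one_iff_of_nonneg l.zero_le two_ne_zero).1 (by
    exact_mod_cast this))

theorem lam_in (o : Ov l P) (h2 : l ≠ 2) {i : GQ} (m : i ∈ inP P) : lam i = 0 :=
  lam_zero (by rw [cy_in o h2 m, one_pow])

theorem lam_fb (o : Ov l P) (h2 : l ≠ 2) (h : Fb l P φ) : lam φ = Lg l := by rw [lam, cy_fb' o h2 h]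

theorem ps_fb (o : Ov l P) (h2 : l ≠ 2) (h : Fb l P φ) : ps l φ = 1 := by
  simp [ps, bs, h2, lam_fb o h2 h, Lg_ne o.1 h2]

theorem ps_five (o : Ov 5 P) (h : Fb 5 P φ) : ps 2 φ = -1 := by
  rw [ps, lam_fb o (by decide) h, if_pos rfl, bs, if_pos rfl, mul_assoc,
    inv_mul_cancel₀ (Lg_ne Nat.prime_five (by decide)), mul_one]

theorem ps_in (o : Ov l P) (h2 : l ≠ 2) (a : ℕ) {i : GQ} (m : i ∈ inP P) : ps a i = 0 := by
  rw [ps, lam_in o h2 m, mul_zero]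

theorem ps_two (g : GQ) : ps 2 g ∈ O := by
  obtain ⟨u, u1, u2⟩ := Lg_unit (un_nat (a := 5) (by decide))
  obtain ⟨v, v1, e⟩ := ((un_nat (a := 3) (by decide)).mul u1).inv
  refine O_of (neg_mem (O_mul v1 (Lg_four (un_cy g)))) ?_
  rw [ps, bs, if_pos rfl, if_pos rfl, u2, eq_inv_of_mul_eq_one_right e, lam, hn]
  push_cast
  have : u ≠ 0 := right_ne_zero_of_mul (left_ne_zero_of_mul_eq_one e)
  field_simp
  ring

theorem ps_int (o : Ov l P) {g : GQ} (m : g ∈ dec P) : ps l g ∈ O := by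
  by_cases h2 : l = 2
  · exact h2 ▸ ps_two g
  obtain ⟨φ, h⟩ := exists_phi o.1 o.2.1 o.2.2
  simpa using (ps_ad _ l 1).unr o h (fun i m => by simp [ps_in o h2 l m])
    (by simpa [ps_fb o h2 h] using O_one) m

theorem ur_lam (o : Ov l P) (h2 : l ≠ 2) (h : Lv (dec P) n fun g => t * lam g) :
    Ur P n fun g => t * lam g := ⟨lam_ad _ _, h, fun i m => by simp [lam_in o h2 m]⟩

theorem ur_ps (o : Ov l P) (h2 : l ≠ 2) {a : ℕ} (int : ∀ g ∈ dec P, ps a g ∈ O)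
    (ht : 2 ^ n * t ∈ O) : Ur P n fun g => t * ps a g :=
  ⟨ps_ad _ _ _, fun g m => O_of (O_mul ht (int g m)) (by ring), fun i m => by
    simp [ps_in o h2 a m]⟩

/-- the cup product of unramified classes -/
theorem cp_unr (o : Ov l P) (h2 : l ≠ 2) {b : ℤ} (hb : β ^ 2 ^ n = b) (nd : ¬ (l : ℤ) ∣ b)
    (u : Ur P n θ) : B2 cy (dec P) (cp n θ β) := by
  have k : Rt (dec P) n β := rt_int hb fun e => nd (e ▸ dvd_zero _)
  rw [← top_inf_eq (dec P)]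
  refine unr1 isOpen_univ o h2 le_top ((top_inf_eq (dec P)).symm ▸ cp_z2 k u.ad u.lv)
    fun g hg j hj i m => ⟨O_of (O_mul (add_mem (u.ad.add g hg.2 i (inP_le_dec m)) (u.ur i m))
      (O_mul (O_cy g) (k.int hj.2))) ?_, O_of (O_cp (u.lv g hg.2) g (add_mem (k.coc hj.2
        (inP_le_dec m)) (O_mul (O_cy j) (Rt.unr o h2 hb nd m)))) ?_⟩
  · simp only [cp, map_mul, cy_in o h2 m]; ring
  · simp only [cp]; ring

theorem st_sq {v : InfinitePlace Qb} {g : GQ} (hg : g ∈ G2.St (G2.ip v)) : g * g = 1 := by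
  obtain ⟨c, hc⟩ := G2.ex_conj v.embedding
  rw [← v.mk_embedding, ← SetLike.mem_coe, G2.st_conj hc] at hg
  rcases hg with rfl | rfl
  exacts [mul_one _, P022E.GW.H56.conj_sq ⟨_, hc⟩]

theorem cp_inf {a : ℤ} (hb : β ^ 2 ^ n = a) (a0 : a ≠ 0) (v : InfinitePlace Qb) :
    B2 cy (G2.St (G2.ip v)) (cp n (fun g => t * lam g) β) := b2_zero fun g hg j _ => by
  simp [cp, lam_zero (g := g) (by rw [← map_pow, sq, st_sq hg, map_one])]

theorem ps_inf {a : ℤ} (hb : β ^ 2 ^ n = a) (a0 : a ≠ 0) (v : InfinitePlace Qb) :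
    cp n (fun g => t * ps l g) β ∈ BB (G2.St (G2.ip v)) := by
  simp only [ps, ← mul_assoc]
  exact cp_inf hb a0 v

theorem ex_iv (P : Ideal (𝓞 Qb)) : ∃ f : (GQ → GQ → K) →+ K ⧸ O, ∀ l, Ov l P →
    (∀ z, B2 cy (dec P) z → f z = 0) ∧ (∀ z, Z2 cy (dec P) z → f z = 0 → B2 cy (dec P) z) ∧
      ∀ n (β : Qb) t, β ^ 2 ^ n = bs l → 2 ^ n * t ∈ O →
        f (cp n (fun g => t * ps l g) β) = mq t := by
  by_cases e : ∃ l, Ov l P
  swap
  · exact ⟨0, fun l o => absurd ⟨l, o⟩ e⟩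
  obtain ⟨l, o⟩ := e
  have h1 : (2 : K) ^ 1 * hn 1 ∈ O := O_of O_one (hn_mul 1)
  refine (ex_f o (ps_ad _ l) (fun _ => ps_int o) (a := bs l) (by
    unfold bs; split_ifs; exacts [by decide, o.1.ne_zero]) fun β hβ b => half_not ?_).imp
    fun f h l' o' => GW.Pl.ov_uniq o o' ▸ h
  by_cases h2 : l = 2
  · subst h2
    obtain ⟨Q, q⟩ := GW.Pl.ex_ov Nat.prime_five
    obtain ⟨φ, h⟩ := exists_phi q.1 q.2.1 q.2.2
    have := rq (n := 1) (cp_z2 (rt_nat (D := ⊤) hβ (by decide)) (ps_ad _ 2 (hn 1)) fun g _ =>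
      lev (ps_two g)) {5} (fun _ => Q) (fun _ => φ) (fun _ => β) (fun _ g => hn 1 * ps 2 g)
      (fun l m => by
        rw [Finset.mem_singleton.1 m, sub_self]
        exact ⟨q, by decide, h, hβ, ur_ps q (by decide) (fun g _ => ps_two g) h1,
          zero_mem (BB _)⟩) (fun p hp m => ?_) ⟨.mk em, ps_inf (a := 5) hβ (by decide) _⟩
    · simpa [ps_five q h, hn_one] using this
    by_cases p2 : p = 2
    · exact ⟨P, p2 ▸ o, b⟩
    obtain ⟨R, r⟩ := GW.Pl.ex_ov hp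
    exact ⟨R, r, cp_unr r p2 (b := (5 : ℕ)) hβ (fun d => m (Finset.mem_singleton.2
      ((Nat.prime_dvd_prime_iff_eq hp Nat.prime_five).1 (Int.natCast_dvd_natCast.1 d))))
      (ur_ps r p2 (fun g _ => ps_two g) h1)⟩
  · obtain ⟨φ, h⟩ := exists_phi o.1 o.2.1 o.2.2
    have := rq (n := 1) (zero_mem (ZZ ⊤)) {l} (fun _ => P) (fun _ => φ) (fun _ => β)
      (fun _ g => hn 1 * ps l g) (fun l m => by
        rw [Finset.mem_singleton.1 m, zero_sub]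
        exact ⟨o, h2, h, by rwa [bs, if_neg h2] at hβ, ur_ps o h2 (fun _ => ps_int o) h1,
          b2_neg b⟩) (fun p hp _ => (GW.Pl.ex_ov hp).imp fun _ r => ⟨r, zero_mem (BB _)⟩)
      ⟨.mk em, zero_mem (BB _)⟩
    simpa [ps_fb o h2 h, hn_one] using this

/-- **the local invariant** -/
def iv (P : Ideal (𝓞 Qb)) : (GQ → GQ → K) →+ K ⧸ O := (ex_iv P).choose

theorem iv_b2 (o : Ov l P) (h : B2 cy (dec P) z) : iv P z = 0 :=
  ((ex_iv P).choose_spec l o).1 z h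

theorem iv_iff (o : Ov l P) (hz : Z2 cy (dec P) z) : iv P z = 0 ↔ B2 cy (dec P) z :=
  ⟨((ex_iv P).choose_spec l o).2.1 z hz, iv_b2 o⟩

theorem iv_ps (o : Ov l P) (hβ : β ^ 2 ^ n = bs l) (ht : 2 ^ n * t ∈ O) :
    iv P (cp n (fun g => t * ps l g) β) = mq t := ((ex_iv P).choose_spec l o).2.2 n β t hβ ht

theorem iv_eq (o : Ov l P) (h : B2 cy (dec P) (z - w)) : iv P z = iv P w := by
  rw [← sub_eq_zero, ← map_sub, iv_b2 o h]

theorem iv_congr (o : Ov l P) (h : ∀ g ∈ dec P, ∀ j ∈ dec P, z g j - w g j ∈ O) :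
    iv P z = iv P w := iv_eq o (b2_zero h)

theorem bs_ne (hl : l.Prime) : bs l ≠ 0 := by
  unfold bs; split_ifs; exacts [by decide, hl.ne_zero]

theorem ps_z2 (o : Ov l P) (hβ : β ^ 2 ^ n = bs l) (ht : 2 ^ n * t ∈ O) :
    Z2 cy (dec P) (cp n (fun g => t * ps l g) β) :=
  cp_z2 (rt_nat hβ (bs_ne o.1)) (ps_ad _ _ _) fun g m => O_of (O_mul ht (ps_int o m)) (by ring)

theorem iv_onto (o : Ov l P) (t : K) : ∃ z, Z2 cy (dec P) z ∧ iv P z = mq t := by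
  obtain ⟨n, ht⟩ := lev_ex t
  obtain ⟨β, hβ⟩ := ex_rt n (bs l)
  exact ⟨_, ps_z2 o hβ ht, iv_ps o hβ ht⟩

theorem iv_smul (o : Ov l P) (hz : Z2 cy (dec P) z) (e : iv P z = mq t) {c : K} (hc : c ∈ O) :
    iv P (fun g j => c * z g j) = mq (c * t) := by
  obtain ⟨k, hk⟩ := z2_lev (G2.dec_closed P) hz
  obtain ⟨k', ht⟩ := lev_ex t
  obtain ⟨m, hm⟩ := apx (k + k') hc
  rw [iv_congr o (w := m • z) fun g hg j hj => O_of (O_lv (lev_up (hk g hg j hj) (k.le_add_right k'))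
    hm) (by simp only [nsm]; ring), map_nsmul, e, ← mq_nat, mq_eq]
  exact O_of (neg_mem (O_lv (lev_up ht (k'.le_add_left k)) hm)) (by ring)

/-- the tame symbol -/
theorem iv_tame (o : Ov l P) (h2 : l ≠ 2) (h : Fb l P φ) (hβ : β ^ 2 ^ n = l) (u : Ur P n θ) :
    iv P (cp n θ β) = mq (θ φ) := by
  rw [← iv_ps o (by rwa [bs, if_neg h2]) (u.lv φ (phi_mem o.1 o.2.1 h))]
  exact iv_congr o fun g hg j hj => cp_congr (rt_nat hβ o.1.ne_zero) hg hj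
    ((u.ad.sub (ps_ad _ l (θ φ))).unr o h (fun i m => by simpa [ps_in o h2 l m] using u.ur i m)
      (by simp [ps_fb o h2 h]) hg)

theorem ex_t (L : Finset ℕ) (a : ℕ → K ⧸ O) :
    ∃ (t : ℕ → K) (n : ℕ), ∀ l, mq (t l) = a l ∧ (l ∈ L → 2 ^ n * t l ∈ O) := by
  choose k hk using fun l => lev_ex (a l).out
  exact ⟨fun l => (a l).out, L.sup k, fun l => ⟨Quot.out_eq _, fun m =>
    lev_up (hk l) (Finset.le_sup m)⟩⟩

theorem rec1 (hz : Z2 cy ⊤ z) (L : Finset ℕ) (P : ℕ → Ideal (𝓞 Qb))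
    (hL : ∀ l ∈ L, Ov l (P l) ∧ l ≠ 2)
    (h1 : ∀ p : ℕ, p.Prime → p ∉ L → ∃ Q, Ov p Q ∧ B2 cy (dec Q) z)
    (h0 : ∃ w, B2 cy (G2.St (G2.ip w)) z) : ∑ l ∈ L, iv (P l) z = 0 := by
  obtain ⟨t, n, ht⟩ := ex_t L fun l => iv (P l) z
  choose β hβ using fun l : ℕ => ex_rt n l
  have : ∀ l, ∃ φ, l ∈ L → Fb l (P l) φ := fun l => by
    by_cases m : l ∈ L
    · exact (exists_phi (hL l m).1.1 (hL l m).1.2.1 (hL l m).1.2.2).imp fun _ h _ => h
    · exact ⟨1, fun e => absurd e m⟩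
  choose φ hφ using this
  have := rq hz L P φ β (fun l g => t l * ps l g) (fun l m => by
    obtain ⟨o, h2⟩ := hL l m
    have e : β l ^ 2 ^ n = bs l := by rw [bs, if_neg h2, hβ]
    refine ⟨o, h2, hφ l m, hβ l, ur_ps o h2 (fun _ => ps_int o) ((ht l).2 m), (iv_iff o
      (sub_mem (H := ZZ _) (z2_mono hz le_top) (ps_z2 o e ((ht l).2 m)))).1 ?_⟩
    rw [map_sub, iv_ps o e ((ht l).2 m), (ht l).1, sub_self]) h1 h0
  rw [← mq_zero, map_sum] at this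
  rw [← this]
  exact Finset.sum_congr rfl fun l m => by
    rw [ps_fb (hL l m).1 (hL l m).2 (hφ l m), mul_one, (ht l).1]

/-- **reciprocity** -/
theorem rec (hz : Z2 cy ⊤ z) (S : Finset ℕ) (P : ℕ → Ideal (𝓞 Qb)) (hS : ∀ p ∈ S, Ov p (P p))
    (h1 : ∀ p : ℕ, p.Prime → p ∉ S → ∃ Q, Ov p Q ∧ B2 cy (dec Q) z)
    (h0 : ∃ w, B2 cy (G2.St (G2.ip w)) z) : ∑ p ∈ S, iv (P p) z = 0 := by
  have : ∀ q : ℕ, ∃ Q, (q ∈ S → Q = P q) ∧
      (q.Prime → Ov q Q ∧ (q ∉ S → B2 cy (dec Q) z)) := fun q => by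
    by_cases a : q ∈ S
    · exact ⟨_, fun _ => rfl, fun _ => ⟨hS q a, fun n => absurd a n⟩⟩
    by_cases b : q.Prime
    · exact (h1 q b a).imp fun _ h => ⟨fun n => absurd n a, fun _ => ⟨h.1, fun _ => h.2⟩⟩
    · exact ⟨⊥, fun n => absurd n a, fun n => absurd n b⟩
  choose Q q1 q2 using this
  obtain ⟨t, n, ht⟩ := ex_t {2} fun l => iv (Q l) z
  have t2 := (ht 2).2 (Finset.mem_singleton_self _)
  obtain ⟨β, hβ⟩ := ex_rt n (5 : ℕ)
  have o2 := (q2 2 Nat.prime_two).1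
  have o5 := (q2 5 Nat.prime_five).1
  obtain ⟨w, hw⟩ : ∃ w, w = cp n (fun g => t 2 * ps 2 g) β := ⟨_, rfl⟩
  have zw : z - w ∈ ZZ ⊤ := sub_mem hz (hw ▸ cp_z2 (rt_nat hβ (by decide)) (ps_ad _ _ _)
    fun g _ => O_of (O_mul t2 (ps_two g)) (by ring))
  have wq : ∀ q, q.Prime → q ≠ 2 → q ≠ 5 → w ∈ BB (dec (Q q)) := fun q hq n2 n5 =>
    hw ▸ cp_unr (q2 q hq).1 n2 (b := (5 : ℕ)) hβ (fun d => n5 ((Nat.prime_dvd_prime_iff_eq hq
      Nat.prime_five).1 (Int.natCast_dvd_natCast.1 d))) (ur_ps (q2 q hq).1 n2 (fun g _ => ps_two g) t2)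
  have pr : ∀ q ∈ (insert 5 S).erase 2, q.Prime := fun q m =>
    (Finset.mem_insert.1 (Finset.mem_erase.1 m).2).elim (fun e => e ▸ Nat.prime_five)
      fun a => (hS q a).1
  have key := rec1 zw ((insert 5 S).erase 2) Q (fun q m => ⟨(q2 q (pr q m)).1,
    (Finset.mem_erase.1 m).1⟩) (fun q hq m => ⟨_, (q2 q hq).1, ?_⟩)
    (h0.imp fun v h => sub_mem (H := BB _) h (hw ▸ ps_inf (a := 5) hβ (by decide) v))
  · obtain ⟨φ, h⟩ := exists_phi o5.1 o5.2.1 o5.2.2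
    simp only [map_sub, Finset.sum_sub_distrib] at key
    rw [Finset.sum_eq_single_of_mem (f := fun q => iv (Q q) w) 5 (by simp) fun q m n5 =>
      iv_b2 (q2 q (pr q m)).1 (wq q (pr q m) (Finset.mem_erase.1 m).1 n5), hw,
      iv_tame o5 (by decide) h hβ (ur_ps o5 (by decide) (fun g _ => ps_two g) t2),
      ps_five o5 h, mul_neg_one, map_neg, sub_neg_eq_add, (ht 2).1, add_comm,
      ← Finset.sum_insert (f := fun q => iv (Q q) z) (Finset.notMem_erase 2 _)] at key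
    rw [← key, Finset.sum_congr rfl fun p m => by rw [← q1 p m]]
    refine Finset.sum_subset (fun p m => by by_cases e : p = 2 <;> simp [e, m]) fun p m a => ?_
    have hp : p.Prime := (Finset.mem_insert.1 m).elim (fun e => e ▸ Nat.prime_two) (pr p)
    exact iv_b2 (q2 p hp).1 ((q2 p hp).2 a)
  · by_cases e : q = 2
    · rw [e, ← iv_iff o2 (z2_mono zw le_top), map_sub, hw, iv_ps o2 hβ t2, (ht 2).1, sub_self]
    · simp only [Finset.mem_erase, Finset.mem_insert, not_and, not_or] at m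
      exact sub_mem (H := BB _) ((q2 q hq).2 (m e).2) (wq q hq e (m e).1)

end Vale.Agent.P014T.Iv
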