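import Vale.Agent.P014T.Iv.Inv
import Vale.Agent.P004S.A.Q

/-!
# P014T, block INV: the value at two, conjugation, the real place (helper93)
-/

set_option linter.all false

noncomputable section

namespace Vale.Agent.P014T.Iv

open NumberField Topology Filter
open Vale.Agent.P022 Vale.Agent.P022K
open Vale.Agent.P022D.W (dec inP_le_dec phi_mem conj_inP exists_phi)
open Vale.Agent.P022.H443 (inP)
open Vale.Agent.P022E.GW (Ov Fb)
open Vale.Agent.P004S.Ga (K O mem_O d2 d3 Z2 B2)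
open Vale.Agent.P004S.Aq Vale.Agent.P004F.Rc Vale.Agent.P014T.Sy
open scoped Pointwise

variable {l n : ℕ} {P : Ideal (𝓞 Qb)} {D Γ : Subgroup GQ} {z w : GQ → GQ → K} {θ : GQ → K}
  {β β' γ : Qb} {t : K} {φ c : GQ}

theorem iv_mul (o : Ov l P) (k : Rt (dec P) n β) (k' : Rt (dec P) n β') (hu : Ad (dec P) θ)
    (lu : Lv (dec P) n θ) (e : γ ^ 2 ^ n = β ^ 2 ^ n * β' ^ 2 ^ n) :
    iv P (cp n θ γ) = iv P (cp n θ β) + iv P (cp n θ β') := by
  rw [← map_add, iv_eq o (cp_cmp (k.mul k') hu lu one_ne_zero (fun g _ => map_one g)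
    (by rw [e, mul_pow, one_pow, mul_one]))]
  exact iv_congr o fun g hg j hj => cp_mul k k' lu hg hj

theorem iv_lev (o : Ov l P) {m : ℕ} (k : Rt (dec P) (n + m) β) (lu : Lv (dec P) n θ) :
    iv P (cp (n + m) θ β) = iv P (cp n θ (β ^ 2 ^ m)) :=
  (iv_congr o fun g hg j hj => cp_lev k lu hg hj).symm

theorem lam_lv (D : Subgroup GQ) (ht : 2 ^ n * (4 * t) ∈ O) : Lv D n fun g => t * lam g :=
  fun g _ => O_of (O_mul ht (Lg_four (un_cy g))) (by simp only [lam, hn]; ring)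

/-- characters which are unramified outside two -/
structure U2 (n : ℕ) (θ : GQ → K) : Prop where
  ad : Ad ⊤ θ
  lv : Lv ⊤ n θ
  ur : ∀ l Q, Ov l Q → l ≠ 2 → ∀ i ∈ inP Q, θ i ∈ O

theorem U2.loc (u : U2 n θ) (o : Ov l P) (h2 : l ≠ 2) : Ur P n θ :=
  ⟨u.ad.mono le_top, fun g _ => u.lv g trivial, u.ur l P o h2⟩

theorem u2_lam (ht : 2 ^ n * (4 * t) ∈ O) : U2 n fun g => t * lam g :=
  ⟨lam_ad _ _, lam_lv _ ht, fun l Q o h2 i m => by simp [lam_in o h2 m]⟩

theorem U2.one (u : U2 n θ) (o : Ov 2 P) (hβ : β ^ 2 ^ n = (-1 : ℤ))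
    (h0 : ∃ v, B2 cy (G2.St (G2.ip v)) (cp n θ β)) : iv P (cp n θ β) = 0 := by
  simpa using Iv.rec (cp_z2 (rt_int hβ (by decide)) u.ad u.lv) {2} (fun _ => P) (by simpa using o)
    (fun p hp m => (GW.Pl.ex_ov hp).imp fun Q q => ⟨q, cp_unr q (by simpa using m) hβ (fun d =>
      hp.ne_one (by exact_mod_cast Int.eq_one_of_dvd_one (by simp) (dvd_neg.1 d)))
      (u.loc q (by simpa using m))⟩) h0

theorem U2.prime (u : U2 n θ) (o : Ov 2 P) {Q : Ideal (𝓞 Qb)} (q : Ov l Q) (h2 : l ≠ 2)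
    (h : Fb l Q φ) (hβ : β ^ 2 ^ n = l) (h0 : ∃ v, B2 cy (G2.St (G2.ip v)) (cp n θ β)) :
    iv P (cp n θ β) = -mq (θ φ) := by
  have := Iv.rec (cp_z2 (rt_nat hβ q.1.ne_zero) u.ad u.lv) {2, l} (fun p => if p = 2 then P else Q)
    (by simpa [h2] using ⟨o, q⟩) (fun p hp m => (GW.Pl.ex_ov hp).imp fun R r => by
      simp only [Finset.mem_insert, Finset.mem_singleton, not_or] at m
      exact ⟨r, cp_unr r m.1 (b := l) (by simpa using hβ) (fun d => m.2
        ((Nat.prime_dvd_prime_iff_eq hp q.1).1 (Int.natCast_dvd_natCast.1 d))) (u.loc r m.1)⟩) h0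
  rw [Finset.sum_pair h2.symm, if_pos rfl, if_neg h2, iv_tame q h2 h hβ (u.loc q h2)] at this
  exact eq_neg_of_add_eq_zero_left this

/-- **the value at two** -/
theorem iv_lam (o : Ov 2 P) (ht : 2 ^ n * (4 * t) ∈ O) {a : ℤ} (ha : Odd a)
    (hβ : β ^ 2 ^ n = a) : iv P (cp n (fun g => t * lam g) β) = -mq (t * Lg a) := by
  let T : ℤ → Prop := fun a => ∀ β : Qb, β ^ 2 ^ n = a →
    iv P (cp n (fun g => t * lam g) β) = -mq (t * Lg a)
  have ne : ∀ {a : ℤ}, Odd a → a ≠ 0 := fun h e => by simp [e] at h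
  have mul : ∀ a b, Odd a → Odd b → T a → T b → T (a * b) := fun a b h h' x y γ e => by
    obtain ⟨β, e1⟩ := ex_rt n a
    obtain ⟨β', e2⟩ := ex_rt n b
    rw [iv_mul o (rt_int e1 (ne h)) (rt_int e2 (ne h')) (lam_ad _ _) (lam_lv _ ht)
      (by rw [e, e1, e2, Int.cast_mul]), x _ e1, y _ e2, Int.cast_mul,
      Lg_mul (un_int h) (un_int h'), mul_add, map_add, neg_add]
  have m1 : T (-1) := fun β e => by
    rw [(u2_lam ht).one o e ⟨.mk em, cp_inf e (by decide) _⟩,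
      (Lg_zero (un_int (by decide))).2 (by simp)]
    simp
  have nat : ∀ a : ℕ, Odd a → T a := fun a => by
    induction a using induction_on_primes with
    | zero => simp
    | one => exact fun _ => mul _ _ (by decide) (by decide) m1 m1
    | prime_mul p a hp ih =>
      intro h
      rw [Nat.odd_mul] at h
      obtain ⟨Q, q⟩ := GW.Pl.ex_ov hp
      obtain ⟨φ, f⟩ := exists_phi q.1 q.2.1 q.2.2
      have p2 : p ≠ 2 := fun e => absurd (e ▸ h.1) (by decide)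
      rw [Nat.cast_mul]
      refine mul _ _ h.1.natCast h.2.natCast (fun β e => ?_) (ih h.2)
      rw [(u2_lam ht).prime o q p2 f (by simpa using e) ⟨.mk em, cp_inf e (by
        simpa using hp.ne_zero) _⟩, lam_fb q p2 f, Int.cast_natCast]
  have := nat _ (Int.natAbs_odd.2 ha)
  rcases Int.natAbs_eq a with e | e
  · exact (by rwa [← e] at this : T a) β hβ
  · refine (?_ : T a) β hβ
    rw [e, ← neg_one_mul]
    exact mul _ _ (by decide) (Int.natAbs_odd.2 ha).natCast m1 this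

/-! ### conjugation -/

theorem b2_cj (hz : Z2 cy Γ z) {A A' : Subgroup GQ} (le : A ≤ Γ) {g : GQ} (hg : g ∈ Γ)
    (e : ∀ x ∈ A', g⁻¹ * x * g ∈ A) (h : B2 cy A z) : B2 cy A' z := by
  have m : ∀ a ∈ Γ, ∀ b ∈ Γ, a⁻¹ * b ∈ Γ := fun a ha b hb => mul_mem (inv_mem ha) hb
  have hZ : Hz A Γ fun x => cy x.1 * z (x.1⁻¹ * x.2.1) (x.2.1⁻¹ * x.2.2) :=
    ⟨(cy_cont.comp continuous_fst).continuousOn.mul (hz.cont.comp
      (f := fun x : GQ × GQ × GQ => (x.1⁻¹ * x.2.1, x.2.1⁻¹ * x.2.2)) (by fun_prop)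
      fun x h => ⟨m _ h.1 _ h.2.1, m _ h.2.1 _ h.2.2⟩), fun a ha b hb d hd f hf => O_of
        (O_mul (O_cy a) (hz.coc _ (m a ha b hb) _ (m b hb d hd) _ (m d hd f hf))) (by
          have : cy a * cy (a⁻¹ * b) = cy b := by rw [← map_mul, mul_inv_cancel_left]
          simp only [d3, mul_assoc, mul_inv_cancel_left, ← this]
          ring), fun γ _ x _ => O_of (zero_mem _) (by
      simp only [Prod.smul_fst, Prod.smul_snd, smul_eq_mul, map_mul, mul_inv_rev, mul_assoc,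
        inv_mul_cancel_left, sub_self])⟩
  obtain ⟨Θ, c1, c2, c3⟩ := prism (X := {x | x * g ∈ A}) hZ
    (fun x hx => (Γ.mul_mem_cancel_right hg).1 (le hx)) le (p := fun x => x * g) (by fun_prop)
    (fun _ h => h) (fun γ _ x => mul_assoc _ _ _) (by simpa using h)
  have x1 : g⁻¹ ∈ {x | x * g ∈ A} := by simpa using A.one_mem
  refine ⟨fun a => cy g * Θ (g⁻¹, g⁻¹ * a), continuousOn_const.mul (c1.comp
    (f := fun a : GQ => (g⁻¹, g⁻¹ * a)) (by fun_prop) fun a ha => ⟨x1, e a ha⟩),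
    fun a ha b hb => ?_⟩
  have e1 := c3 _ x1 _ (e a ha) _ (e _ (mul_mem ha hb))
  have e2 := c2 _ (e a ha) (g⁻¹, g⁻¹ * b) ⟨x1, e b hb⟩
  simp only [Prod.smul_mk, smul_eq_mul, mul_assoc, mul_inv_cancel, mul_one, mul_inv_cancel_left,
    inv_inv, mul_inv_rev, inv_mul_cancel_left, map_mul] at e1 e2
  refine O_of (O_mul (O_cy g) (add_mem e1 e2)) ?_
  simp only [d2]
  linear_combination (cy g * cy a * Θ (g⁻¹, g⁻¹ * b) - z a b) * cy_inv g

theorem dec_cj {g x : GQ} (h : x ∈ dec (g • P)) : g⁻¹ * x * g ∈ dec P := by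
  rw [← G2.st_fp, ← G2.smul_fp, MulAction.mem_stabilizer_iff] at h
  rw [← G2.st_fp, MulAction.mem_stabilizer_iff, mul_smul, mul_smul, h, inv_smul_smul]

theorem b2_smul (hz : Z2 cy ⊤ z) (g : GQ) (h : B2 cy (dec P) z) : B2 cy (dec (g • P)) z :=
  b2_cj hz le_top (g := g) trivial (fun _ => dec_cj) h

theorem iv_conj (o : Ov l P) (hz : Z2 cy ⊤ z) (g : GQ) : iv (g • P) z = iv P z := by
  obtain ⟨t, ht⟩ := QuotientAddGroup.mk'_surjective O (iv P z)
  obtain ⟨k, hk⟩ := lv_of isClosed_univ (ps_ad ⊤ l t)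
  obtain ⟨k', hk'⟩ := lev_ex t
  have t1 := lev_up hk' (k'.le_add_left k)
  obtain ⟨β, hβ⟩ := ex_rt (k + k') (bs l)
  have zw : z - _ ∈ ZZ ⊤ := sub_mem hz
    (cp_z2 (rt_nat hβ (bs_ne o.1)) (ps_ad ⊤ l t) (hk.up (k.le_add_right k')))
  rw [iv_eq (GW.ov_smul o g) (b2_smul zw g ((iv_iff o (z2_mono zw le_top)).1 (by
    rw [map_sub, iv_ps o hβ t1, ← ht]; exact sub_self _))), iv_ps (GW.ov_smul o g) hβ t1]
  exact ht

theorem iv_ind (o : Ov l P) {Q : Ideal (𝓞 Qb)} (q : Ov l Q) (hz : Z2 cy ⊤ z) : iv Q z = iv P z := by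
  obtain ⟨g, rfl⟩ := GW.Pl.ov_trans o q
  exact iv_conj o hz g

/-! ### the real place -/

theorem cy_conj (h : P022.IsConj c) : cy c = -1 := by
  obtain ⟨f, h⟩ := h
  refine eq_neg_of_add_eq_zero_left (zero_of fun n => O_of ((ex_one (x := cy c * hn n + hn n)).1
    (f.injective ?_)) (by ring))
  rw [ex_add, ← ex_cy, map_mul, h, map_one, Complex.conj_mul', Complex.norm_eq_one_of_pow_eq_one
    (n := 2 ^ n) (by rw [← map_pow, (ex_prim' n).pow_eq_one, map_one]) (by positivity)]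
  simp

/-- the invariant at the real place -/
def ir (c : GQ) : (GQ → GQ → K) →+ K ⧸ O :=
  AddMonoidHom.mk' (fun z => mq (z c c + z 1 1)) fun a b => by
    rw [← map_add]; congr 1; simp only [Pi.add_apply]; ring

theorem ir_apply (c : GQ) (z : GQ → GQ → K) : ir c z = mq (z c c + z 1 1) := rfl

section real

variable (h : P022.IsConj c) (hD : ∀ g, g ∈ D ↔ g = 1 ∨ g = c)

include h hD

theorem ir_b2 (b : B2 cy D z) : ir c z = 0 := by
  obtain ⟨θ, -, e⟩ := b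
  have a := (hD 1).2 (.inl rfl)
  have b := (hD c).2 (.inr rfl)
  exact mq_zero.2 (O_of (add_mem (e c b c b) (e 1 a 1 a)) (by
    simp only [d2, P022E.GW.H56.conj_sq h, cy_conj h, map_one, mul_one]; ring))

theorem ir_aux (hz : Z2 cy D z) : z 1 c - z 1 1 ∈ O ∧ z c 1 + z 1 1 ∈ O := by
  have a := (hD 1).2 (.inl rfl)
  have b := (hD c).2 (.inr rfl)
  exact ⟨O_of (hz.coc 1 a 1 a c b) (by simp [d3]), O_of (neg_mem (hz.coc c b 1 a 1 a)) (by
    simp only [d3, cy_conj h, mul_one]; ring)⟩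

theorem ir_iff (hz : Z2 cy D z) : ir c z = 0 ↔ B2 cy D z :=
  ⟨fun e => ⟨fun _ => z 1 1, continuousOn_const, fun g hg j hj => by
    rcases (hD g).1 hg with rfl | rfl <;> rcases (hD j).1 hj with rfl | rfl
    · simp [d2]
    · simpa [d2] using (ir_aux h hD hz).1
    · simpa [d2, cy_conj h] using (ir_aux h hD hz).2
    · simpa [d2, cy_conj h] using mq_zero.1 e⟩, ir_b2 h hD⟩

theorem ir_two (hz : Z2 cy D z) : ir c z = 0 ∨ ir c z = mq 2⁻¹ := by
  have b := (hD c).2 (.inr rfl)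
  refine (hf_cases (O_of (sub_mem (sub_mem (ir_aux h hD hz).2 (ir_aux h hD hz).1)
    (hz.coc c b c b c b)) ?_)).imp mq_zero.2 mq_eq.2
  simp only [d3, P022E.GW.H56.conj_sq h, cy_conj h]
  ring

end real

theorem ex_st (h : P022.IsConj c) : ∃ v, ∀ g, g ∈ G2.St (G2.ip v) ↔ g = 1 ∨ g = c :=
  h.elim fun f e => ⟨.mk f, fun g => by rw [← SetLike.mem_coe, G2.st_conj e]; rfl⟩

/-- the character of the field of the fourth roots of unity -/
def th (g : GQ) : K := 4⁻¹ * (1 - cy g)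

theorem u2_th : U2 1 th :=
  ⟨⟨(continuous_const.mul (continuous_const.sub cy_cont)).continuousOn, fun g _ j _ =>
    O_of (neg_mem (O_mul (cy_one g) (cy_one j))) (by simp only [th, map_mul]; ring)⟩,
    fun g _ => O_of (neg_mem (cy_one g)) (by rw [th]; ring), fun l Q o h2 i m => by
      simp [th, cy_in o h2 m]⟩

theorem ir_th (h : P022.IsConj c) (k : Rt ⊤ 1 β) : ir c (cp 1 th β) = -mq (ku β c) := by
  rw [ir_apply, ← map_neg]
  congr 1
  simp only [cp, th, cy_conj h, map_one]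
  ring

theorem half_add : mq 2⁻¹ + mq 2⁻¹ = 0 := by
  rw [← map_add, mq_zero]; exact O_of O_one (by norm_num)

/-- **reciprocity with the real place** -/
theorem rec' (hz : Z2 cy ⊤ z) (S : Finset ℕ) (P : ℕ → Ideal (𝓞 Qb)) (hS : ∀ p ∈ S, Ov p (P p))
    (h1 : ∀ p : ℕ, p.Prime → p ∉ S → ∃ Q, Ov p Q ∧ B2 cy (dec Q) z) (h : P022.IsConj c) :
    ∑ p ∈ S, iv (P p) z + ir c z = 0 := by
  obtain ⟨v, hv⟩ := ex_st h
  rcases ir_two h hv (z2_mono hz le_top) with e | e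
  · rw [e, rec hz S P hS h1 ⟨v, (ir_iff h hv (z2_mono hz le_top)).1 e⟩, add_zero]
  obtain ⟨β, hβ⟩ := ex_rt 1 (-1 : ℤ)
  obtain ⟨γ, hγ⟩ := ex_rt 1 (7 : ℕ)
  obtain ⟨y, hy⟩ := ex_rt 1 (-7 : ℤ)
  have k : Rt ⊤ 1 β := rt_int hβ (by decide)
  have k' : Rt ⊤ 1 γ := rt_nat hγ (by decide)
  have w2 : cp 1 th β ∈ ZZ ⊤ := cp_z2 k u2_th.ad u2_th.lv
  have wq : ∀ p Q, Ov p Q → p ≠ 2 → cp 1 th β ∈ BB (dec Q) := fun p Q q p2 => cp_unr q p2 hβ
    (fun d => q.1.ne_one (by exact_mod_cast Int.eq_one_of_dvd_one (by simp) (dvd_neg.1 d)))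
    (u2_th.loc q p2)
  have e2 : ∀ Q, Ov 2 Q → iv Q (cp 1 th β) = mq 2⁻¹ := fun Q q => by
    obtain ⟨R, r⟩ := GW.Pl.ex_ov (l := 7) (by decide)
    obtain ⟨φ, f⟩ := exists_phi r.1 r.2.1 r.2.2
    have c7 : c γ = γ := ((P004S.Aq.Q.ks_int (m := 7) (by decide)).iff (by simpa using hγ) c).1
      ((P004S.Aq.Q.ks_int (by decide)).inf (by decide) (w := v) (G2.st_ip v ▸ (hv c).2 (.inr rfl)))
    rw [← iv_eq q (cp_cmp (k.mono le_top) (u2_th.ad.mono le_top) (fun g _ => u2_th.lv g trivial)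
      (rt_int (D := ⊤) hy (by decide)).1 (fun g m => ((P004S.Aq.Q.ks_int (m := -7) (by decide)).iff
        (by simpa using hy) g).1 ((P004S.Aq.Q.ks_int (by decide)).spl2 q (by decide) m)) (β' := γ)
      (by rw [hβ, hγ, hy]; norm_num)), u2_th.prime q r (by decide) f hγ ⟨v, (ir_iff h hv (z2_mono
        (cp_z2 k' u2_th.ad u2_th.lv) le_top)).1 (by
          rw [ir_th h k', mq_zero.2 ((k'.fix trivial).1 c7), neg_zero])⟩, th, cy_fb' r (by decide) f,
      ← map_neg, mq_eq]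
    exact O_of O_one (by norm_num)
  have e3 : ir c (cp 1 th β) = mq 2⁻¹ := (ir_two h hv (z2_mono w2 le_top)).resolve_left fun a => by
    rw [ir_th h k, neg_eq_zero, mq_zero, ← k.fix trivial] at a
    obtain ⟨f, hf⟩ := h
    have := hf β
    rw [a, eq_comm, Complex.conj_eq_iff_real] at this
    obtain ⟨r, hr⟩ := this
    have := congrArg f hβ
    rw [map_pow, hr, map_intCast] at this
    have : r ^ 2 = -1 := by exact_mod_cast this
    nlinarith [sq_nonneg r]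
  obtain ⟨Q, q, q1, q2⟩ : ∃ Q, Ov 2 Q ∧ (2 ∈ S → Q = P 2) ∧ (2 ∉ S → iv Q z = 0) := by
    by_cases a : 2 ∈ S
    · exact ⟨_, hS 2 a, fun _ => rfl, fun n => absurd a n⟩
    · exact (h1 2 Nat.prime_two a).imp fun Q b => ⟨b.1, fun n => absurd n a, fun _ => iv_b2 b.1 b.2⟩
  have zw : z - cp 1 th β ∈ ZZ ⊤ := sub_mem hz w2
  have key := rec zw (insert 2 (S.erase 2)) (Function.update P 2 Q) (fun p m => by
    by_cases a : p = 2
    · rwa [a, Function.update_self]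
    · rw [Function.update_of_ne a]; exact hS p (by simpa [a] using m)) (fun p hp m => by
      simp only [Finset.mem_insert, Finset.mem_erase, not_or, not_and] at m
      exact (h1 p hp (m.2 m.1)).imp fun R r => ⟨r.1, sub_mem (H := BB _) r.2 (wq p R r.1 m.1)⟩)
    ⟨v, (ir_iff h hv (z2_mono zw le_top)).1 (by rw [map_sub, e, e3, sub_self])⟩
  rw [Finset.sum_insert (Finset.notMem_erase 2 _), Function.update_self, map_sub, e2 Q q,
    Finset.sum_congr rfl (g := fun p => iv (P p) z) fun p m => by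
      rw [Function.update_of_ne (Finset.mem_erase.1 m).1, map_sub, iv_b2 (hS p (Finset.mem_erase.1
        m).2) (wq p _ (hS p (Finset.mem_erase.1 m).2) (Finset.mem_erase.1 m).1), sub_zero]] at key
  rw [e, eq_neg_of_add_eq_zero_left half_add, ← key, sub_add_eq_add_sub, sub_eq_add_neg]
  congr 1
  by_cases a : 2 ∈ S
  · rw [q1 a, Finset.add_sum_erase S (fun p => iv (P p) z) a]
  · rw [q2 a, zero_add, Finset.erase_eq_of_notMem a]

end Vale.Agent.P014T.Iv
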